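import Mathlib
import Vale.Agent.P344.Defs
import Vale.Agent.P344.Main

namespace Vale.Agent.Results.P344.LinearLowerBound

open Vale.Agent.P344

/-- Every linear circuit (gates `u + v`, `u - v`, `c • u`, unrestricted complex `c`, every gate of
cost one) that computes the unnormalized Fourier transform `F_n x` has at least
`4 n - n / minFac n - d(n) - 3` gates, where `minFac n` is the least prime factor of `n` and
`d(n)` the number of divisors of `n`. -/
theorem result (n s : ℕ) (hn : 2 ≤ n) (g : Fin s → Val n) (hg : IsCircuit g)
    (hc : ComputesDFT g) : 4 * n ≤ s + n / n.minFac + n.divisors.card + 3 :=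
  circuit_bound hn g hg hc

end Vale.Agent.Results.P344.LinearLowerBound
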