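import Mathlib
import Vale.Agent.Results.P344.LinearLowerBound

namespace Vale.Agent.Results.P344.M_ExplicitCorollaries

open Vale.Agent.P344

/-- Every linear circuit (gates `u + v`, `u - v`, `c • u`, unrestricted complex `c`, every gate of
cost one) with `s` gates that computes the unnormalized Fourier transform `F_n x` satisfies
`7 n ≤ 2 s + 2 d(n) + 6` for every `n ≥ 2`, and `4 n ≤ s + 6` when `n` is prime. -/
theorem result (n s : ℕ) (hn : 2 ≤ n) (g : Fin s → Val n) (hg : IsCircuit g)
    (hc : ComputesDFT g) :
    7 * n ≤ 2 * s + 2 * n.divisors.card + 6 ∧ (n.Prime → 4 * n ≤ s + 6) := by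
  have h := Vale.Agent.Results.P344.LinearLowerBound.result n s hn g hg hc
  constructor
  · have h2 : 2 ≤ n.minFac := (Nat.minFac_prime (by omega)).two_le
    have h3 : n / n.minFac ≤ n / 2 := Nat.div_le_div_left h2 (by norm_num)
    omega
  · intro hp
    rw [hp.minFac_eq, Nat.div_self hp.pos, hp.divisors, Finset.card_pair hp.one_lt.ne] at h
    omega

end Vale.Agent.Results.P344.M_ExplicitCorollaries
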